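import Vale.Agent.P251.H603.Weak

/-!
The weak chromatic splitting conjecture fails at `(n, p)` if `p ≤ n`, `(p - 1) ∤ n` and
`n² < 2 (p - 1)²`, for example for `n = p ≥ 5`.

`T` is the `p`-local stable homotopy category, `K m` the Morava `K`-theories, `J m` the
Johnson-Wilson theories `E(m)`, `D` the `K(n)`-local category, `E` Lubin-Tate theory `E_n`,
`EO` the higher real `K`-theory `EO_{p-1}` and `x` the element `β₁`.
-/

open CategoryTheory MonoidalCategory Limits Pretriangulated MonObj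
open Vale.Agent.P251.H603

universe v u v' u'

theorem Vale.Agent.P251.Spare.WeakFails
    {T : Type u} [Category.{v} T] [Preadditive T] [HasZeroObject T]
    [HasShift T ℤ] [∀ n : ℤ, (shiftFunctor T n).Additive] [Pretriangulated T]
    [MonoidalCategory T] [SymmetricCategory T] [TensorTriangulated T]
    {D : Type u'} [Category.{v'} D] [Preadditive D] [HasZeroObject D]
    [HasShift D ℤ] [∀ n : ℤ, (shiftFunctor D n).Additive] [Pretriangulated D]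
    [MonoidalCategory D] [SymmetricCategory D] [TensorTriangulated D]
    (p n : ℕ) (hp : p.Prime) (hpn : p ≤ n) (hdiv : ¬ (p - 1) ∣ n)
    (hlt : n ^ 2 < 2 * (p - 1) ^ 2)
    -- the Morava K-theories `K m` and the Johnson-Wilson theories `J m = E(m)`
    (K J : ℕ → T) (hK : ∀ m, 1 ≤ m → (p : ℤ) • 𝟙 (K m) = 0)
    (hJ : ∀ m A, IsZero (J m ⊗ A) ↔ ∀ i ≤ m, IsZero (K i ⊗ A))
    -- the mod `p` Moore spectrum `M` and the `p`-complete sphere `S`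
    (M : T) (a : 𝟙_ T ⟶ M) (b : M ⟶ (𝟙_ T)⟦(1 : ℤ)⟧)
    (hM : Triangle.mk ((p : ℤ) • 𝟙 (𝟙_ T)) a b ∈ distTriang T)
    (S : T) (c : 𝟙_ T ⟶ S) (hc : IsBousfieldLocalization M c)
    -- `X = L_{n-1} S`, `Z = L_{K(n)} S`, `Y = L_{n-1} Z` and the canonical map `iₙ : X ⟶ Y`
    (X : T) (l : S ⟶ X) (hl : IsBousfieldLocalization (J (n - 1)) l)
    (Z : T) (z : S ⟶ Z) (hz : IsBousfieldLocalization (K n) z)
    (Y : T) (y : Z ⟶ Y) (hy : IsBousfieldLocalization (J (n - 1)) y)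
    (iₙ : X ⟶ Y) (hi : l ≫ iₙ = z ≫ y)
    -- the `K(n)`-local category `D` and the localization functor `L`
    (L : T ⥤ D) [L.Monoidal] [L.CommShift ℤ] [L.IsTriangulated] (R : D ⥤ T) [R.Full] [R.Faithful]
    (adj : L ⊣ R) (hL : ∀ A, IsZero (L.obj A) ↔ IsZero (K n ⊗ A))
    -- Lubin-Tate theory `E`: `π_* E` is torsion free, `π_* (E ⊗ E)` is even, the unit is
    -- `E`-nilpotent, and `E₂^{s,*} = 0` for `s > n²` in the `E`-based Adams spectral sequence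
    (E F : D) [MonObj E] (i : F ⟶ 𝟙_ D) (δ : E ⟶ F⟦(1 : ℤ)⟧)
    (hF : Triangle.mk i η[E] δ ∈ distTriang D)
    (htf : ∀ (t : ℤ) (f : (𝟙_ D)⟦t⟧ ⟶ E), (p : ℤ) • f = 0 → f = 0)
    (hodd : ∀ t : ℤ, Odd t → ∀ f : (𝟙_ D)⟦t⟧ ⟶ E ⊗ E, f = 0)
    (hnil : IsNilpotent E (𝟙_ D))
    (hvan : ¬ (p - 1) ∣ n → ∀ s : ℕ, n ^ 2 ≤ s → AdamsE₂Vanishes δ s)
    -- the element `x = β₁` and the `K(p-1)`-local ring spectrum `EO = EO_{p-1}`
    (x : (𝟙_ T)⟦(2 * p ^ 2 - 2 * p - 2 : ℤ)⟧ ⟶ 𝟙_ T) (hx : (p : ℤ) • x = 0)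
    (EO : T) [MonObj EO] (hEO : ∀ W : T, IsZero (K (p - 1) ⊗ W) → ∀ g : W ⟶ EO, g = 0)
    (hβ : pow x ((p - 1) ^ 2) ≫ η[EO] ≠ 0) :
    ¬ ∃ r : Y ⟶ X, iₙ ≫ r = 𝟙 X :=
  weak_splitting_fails p n hp hpn hdiv hlt K J hK hJ M a b hM S c hc X l hl Z z hz Y y hy iₙ hi
    L R adj hL E F i δ hF htf hodd hnil hvan x hx EO hEO hβ
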