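import Vale.Agent.P251.H256.Prim
import Mathlib.Data.Nat.Prime.Basic

/-!
# P251, Q2: the weak chromatic splitting conjecture fails

All inputs from the literature are stated at the level of `E₂`-terms (cohomology of the Morava
stabilizer group and of a finite subgroup of it).

* `T` is the stable homotopy category of `p`-local spectra, `K i` are the Morava `K`-theories;
* `c : S ⟶ S_p` is the `p`-completion of the sphere, `z : S_p ⟶ Z = L_{K(n)} S_p`,
  `l : S_p ⟶ X = L_{n-1} S_p`, `y : Z ⟶ Y = L_{n-1} L_{K(n)} S_p`, and `i : X ⟶ Y` is the canonical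
  map `i_n`;
* `L : T ⥤ D` is the localization functor to the `K(n)`-local category, `E` is Morava `E`-theory
  `E_n`, and `I` is the fibre of its unit;
* `L' : T ⥤ D'` is `X ↦ L_{K(p-1)}(EO_{p-1} ⊗ X)`, from `T` to the category of `K(p-1)`-local
  modules over `EO_{p-1} = E_{p-1}^{hG}`, `G` a maximal finite subgroup of the Morava stabilizer
  group containing an element of order `p`; `E'` is `E_{p-1}`, considered as an algebra in `D'`,
  and `I'` is the fibre of its unit; the `E'`-based Adams spectral sequence of the unit of `D'` is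
  the homotopy fixed point spectral sequence `H^s(G; π_t E_{p-1}) ⇒ π_{t-s} EO_{p-1}`;
* `β` is `β₁`.
-/

set_option linter.unusedVariables false

open CategoryTheory MonoidalCategory Limits Pretriangulated MonObj

universe v u v' u' v'' u''

/-- The weak chromatic splitting fails at `(n, p)` whenever `p ≤ n`, `p - 1` does not divide `n`
and `n ^ 2 < 2 (p - 1) ^ 2` (for instance `n = p ≥ 5`). -/
theorem Vale.Agent.P251.Spare.WeakPrimitive
    -- the stable homotopy category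
    {T : Type u} [Category.{v} T] [Preadditive T] [HasZeroObject T] [HasShift T ℤ]
    [∀ n : ℤ, (shiftFunctor T n).Additive] [Pretriangulated T] [MonoidalCategory T]
    [SymmetricCategory T] [Vale.Agent.P251.TensorTriangulated T]
    -- the `K(n)`-local category
    {D : Type u'} [Category.{v'} D] [Preadditive D] [HasZeroObject D] [HasShift D ℤ]
    [∀ n : ℤ, (shiftFunctor D n).Additive] [Pretriangulated D] [MonoidalCategory D]
    [SymmetricCategory D] [Vale.Agent.P251.TensorTriangulated D]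
    -- the category of `K(p-1)`-local `EO_{p-1}`-modules
    {D' : Type u''} [Category.{v''} D'] [Preadditive D'] [HasZeroObject D'] [HasShift D' ℤ]
    [∀ n : ℤ, (shiftFunctor D' n).Additive] [Pretriangulated D'] [MonoidalCategory D']
    [SymmetricCategory D'] [Vale.Agent.P251.TensorTriangulated D']
    -- the prime and the height
    (p n : ℕ) (prime : p.Prime) (p_le_n : p ≤ n) (not_dvd : ¬ (p - 1) ∣ n)
    (n_small : n ^ 2 < 2 * (p - 1) ^ 2)
    -- Morava `K`-theories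
    (K : ℕ → T) (p_eq_zero_on_K : ∀ m, 1 ≤ m → (p : ℤ) • 𝟙 (K m) = 0)
    -- the `p`-complete sphere
    {M Sp : T} {a : 𝟙_ T ⟶ M} {b : M ⟶ (𝟙_ T)⟦(1 : ℤ)⟧}
    (moore : Triangle.mk ((p : ℤ) • 𝟙 (𝟙_ T)) a b ∈ distTriang T)
    (c : 𝟙_ T ⟶ Sp)
    (p_completion : Vale.Agent.P251.IsBousfieldLocalization (fun _ : Unit => M) c)
    -- its `K(n)`-localization, and the `E(n-1)`-localizations of both
    {Z : T} (z : Sp ⟶ Z)
    (K_n_localization : Vale.Agent.P251.IsBousfieldLocalization (fun _ : Unit => K n) z)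
    {X Y : T} (l : Sp ⟶ X)
    (L_sphere : Vale.Agent.P251.IsBousfieldLocalization (Vale.Agent.P251.upTo K (n - 1)) l)
    (y : Z ⟶ Y)
    (L_overlap : Vale.Agent.P251.IsBousfieldLocalization (Vale.Agent.P251.upTo K (n - 1)) y)
    -- the canonical map
    (i : X ⟶ Y) (i_canonical : l ≫ i = z ≫ y)
    -- `K(n)`-localization as a functor to the `K(n)`-local category
    (L : T ⥤ D) [L.Additive] [L.CommShift ℤ] [L.IsTriangulated] [L.Monoidal]
    (R : D ⥤ T) (adj : L ⊣ R) [R.Full] [R.Faithful]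
    (kernel : ∀ W : T, IsZero (L.obj W) ↔ IsZero (K n ⊗ W))
    -- Morava `E`-theory `E_n`, and the fibre `I` of its unit
    {E I : D} [MonObj E] {ι : I ⟶ 𝟙_ D} {δ : E ⟶ I⟦(1 : ℤ)⟧}
    (fibre : Triangle.mk ι η[E] δ ∈ distTriang D)
    (homotopy_of_E_torsion_free : ∀ (j : ℤ) (g : (𝟙_ D)⟦j⟧ ⟶ E), p • g = 0 → g = 0)
    (cooperations_even : ∀ j : ℤ, Odd j → ∀ g : (𝟙_ D)⟦j⟧ ⟶ E ⊗ E, g = 0)
    -- Morava, Devinatz-Hopkins, Lazard, Serre: `E₂^{s,t} = H^s(G_n; π_t E_n) = 0` for `s > n ^ 2`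
    (E₂_vanishing : ∀ (s : ℕ) (t : ℤ), n ^ 2 < s → Vale.Agent.P251.AdamsE₂IsZero δ s t)
    -- Hopkins-Ravenel: convergence, from the `E_n`-nilpotence of the `K(n)`-local sphere
    (E_nilpotence : ∀ j : ℤ, ∃ N : ℕ, ∀ x : (𝟙_ D)⟦j⟧ ⟶ Vale.Agent.P251.tensorPower I N,
      x ≫ Vale.Agent.P251.towerMap ι N = 0)
    -- `K(p-1)`-local `EO_{p-1}`-modules
    (L' : T ⥤ D') [L'.CommShift ℤ] [L'.IsTriangulated] [L'.Monoidal]
    (kernel' : ∀ W : T, IsZero (K (p - 1) ⊗ W) → IsZero (L'.obj W))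
    -- Morava `E`-theory `E_{p-1}`, and the fibre `I'` of its unit
    {E' I' : D'} [MonObj E'] {ι' : I' ⟶ 𝟙_ D'} {δ' : E' ⟶ I'⟦(1 : ℤ)⟧}
    (fibre' : Triangle.mk ι' η[E'] δ' ∈ distTriang D')
    -- Hopkins-Miller: the bidegrees of `E₂^{s,t} = H^s(G; π_t E_{p-1})`
    (E₂_bidegrees : ∀ (s : ℕ) (t : ℤ),
      ¬ Vale.Agent.P251.EOBidegree p s t → Vale.Agent.P251.AdamsE₂IsZero δ' s t)
    -- the element `β₁`
    (β : (𝟙_ T)⟦(2 * (p : ℤ) ^ 2 - 2 * p - 2 : ℤ)⟧ ⟶ 𝟙_ T) (β_torsion : p • β = 0)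
    -- Ravenel, Hopkins-Miller: `β₁^k` is represented by `β^k ≠ 0` in `H^{2k}(G; π_* E_{p-1})`,
    -- `k = (p-1)^2`
    (β_power_detected : ∃ w : L'.obj (Vale.Agent.P251.iterShift (𝟙_ T)
          (2 * (p : ℤ) ^ 2 - 2 * p - 2) ((p - 1) ^ 2)) ⟶
        Vale.Agent.P251.tensorPower I' (2 * (p - 1) ^ 2),
      w ≫ Vale.Agent.P251.towerMap ι' (2 * (p - 1) ^ 2) =
          L'.map (Vale.Agent.P251.power β ((p - 1) ^ 2)) ≫ Functor.OplaxMonoidal.η L' ∧
        ¬ Vale.Agent.P251.HasZeroClass δ' (2 * (p - 1) ^ 2) w) :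
    ¬ ∃ r : Y ⟶ X, i ≫ r = 𝟙 X :=
  Vale.Agent.P251.no_retraction_primitive p_le_n n_small prime.two_le K p_eq_zero_on_K moore c
    p_completion z K_n_localization l L_sphere y i i_canonical L R adj kernel fibre
    homotopy_of_E_torsion_free cooperations_even E₂_vanishing E_nilpotence rfl β β_torsion L'
    kernel' fibre' E₂_bidegrees β_power_detected
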